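import Vale.Agent.ZAbs.Final
import Vale.Agent.ZAbs.Glue.Restate

/-! P101: a unital separable C*-algebra is Jiang-Su stable exactly when its central sequence algebra
has no characters. -/

namespace Vale.Agent.Results.P101.ZStableIffNoCharacters

open Filter Topology
open scoped BoundedContinuousFunction ComplexOrder
open Vale.Agent.P101 Vale.Agent.ZAbs

universe u

theorem result :
    Nonempty JSSys ∧
    (∀ (S : JSSys) (A : Type u) [NonUnitalCStarAlgebra A] [PartialOrder A] [StarOrderedRing A],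
      HasTensorLim S A) ∧
    ∀ (S : JSSys) (A : Type u) [CStarAlgebra A] [PartialOrder A] [StarOrderedRing A]
      [TopologicalSpace.SeparableSpace A] (ω : Ultrafilter ℕ), (ω : Filter ℕ) ≤ Filter.cofinite →
      (IsEmpty (CentralChar ω A) ↔ IsJSStable S A) := by
  refine ⟨system_exists, hasTensorLim, fun S A _ _ _ _ ω hω =>
    ⟨fun h => ?_, fun hZ =>
      Glue.noChar_of_noCharA (noChar_ok S A ω hω (isJSStable_iff.1 hZ))⟩⟩
  obtain ⟨B, i, ι, -, Φ, -, hT, -⟩ := main_ok S PUnit.{1} Glue.folner_punit A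
    (fun _ => StarAlgEquiv.refl ℂ A) (fun _ _ _ => rfl) ω hω (Glue.noCharA_of_noChar h)
  exact isJSStable_iff.2 ⟨B, i, ι, hT, ⟨Φ⟩⟩

end Vale.Agent.Results.P101.ZStableIffNoCharacters
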